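import Vale.Agent.P254.H242.Final

open MeasureTheory Set Matrix Vale.Agent.P254.CC Vale.Agent.P254.H242 Vale.Agent.P254.H375

/-- (1) Near-sharp slicing for all convex bodies.
(2) The strong isotropic constant conjecture, with its equality case, for the class `Cls2`.
(3) The functional form of (1) for all log-concave probability densities, and its sharp form for the
densities with `n` affine hyperplane symmetries.
(4) The reduction of the comparison with the simplex to the entropic inequality.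
(5) Bodies invariant under the rotations of several groups of coordinates.
(6) Bodies whose fibres over `ℝ^q` are homothets of one body of `ℝ^p`.
(7) Products and free sums of an arbitrary body and an unconditional body. -/
theorem Vale.Agent.Results.P254.AllBodiesSharper.result :
    (∀ (n : ℕ) (K S : Set (Fin n → ℝ)), 1 ≤ n → Body K → Simp S →
      iso K ≤ Real.exp (7 / 40 * (((n : ℝ) + 1) / n)) * iso S ∧ iso K ≤ Real.exp (-(33 / 40)) ∧
        iso S ^ (2 * n) = simplexPow n) ∧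
    (∀ (n : ℕ) (K S : Set (Fin n → ℝ)), Cls2 n K → Simp S →
      iso K ≤ iso S ∧ (iso K = iso S ↔ Simp K)) ∧
    (∀ (n : ℕ) (f : (Fin n → ℝ) → ℝ), LogConcave f → ∫ x, f x = 1 →
      (Integrable fun x => f x * Real.log (f x)) ∧ (Vale.Agent.P254.H375.cov f).PosDef ∧
      33 / 40 * (n : ℝ) + 1 / 2 * Real.log (Vale.Agent.P254.H375.cov f).det ≤ entropy f ∧
      (∀ x, f x * Real.sqrt (Vale.Agent.P254.H375.cov f).det ≤ Real.exp (7 / 40 * n)) ∧
      ((∃ (a w : Fin n → Fin n → ℝ) (c : Fin n → ℝ), LinearIndependent ℝ a ∧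
          (∀ i, w i ⬝ᵥ a i = 2) ∧ ∀ i x, f (x - (w i ⬝ᵥ x - c i) • a i) = f x) →
        (n : ℝ) + 1 / 2 * Real.log (Vale.Agent.P254.H375.cov f).det ≤ entropy f ∧
          ∀ x, f x * Real.sqrt (Vale.Agent.P254.H375.cov f).det ≤ 1)) ∧
    (∀ (n : ℕ) (δ : ℝ), 1 ≤ n →
      (∀ f : (Fin (n + 1) → ℝ) → ℝ, LogConcave f → ∫ x, f x = 1 →
        (1 - δ) * ((n : ℝ) + 1) + 1 / 2 * Real.log (Vale.Agent.P254.H375.cov f).det ≤ entropy f) →
      ∀ K S : Set (Fin n → ℝ), Body K → Simp S →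
        iso K ≤ Real.exp (δ * (((n : ℝ) + 1) / n)) * iso S) ∧
    (∀ (n m : ℕ) (K S : Set (Fin n → ℝ)) (T : Fin m → Finset (Fin n)), 1 ≤ n → Body K → Simp S →
      (∀ i j, i ≠ j → Disjoint (T i) (T j)) → (∀ i, RotIn (T i) K) →
      iso K ^ (2 * n) ≤ Real.exp (7 / 20 * ((n : ℝ) + 1)) * (∏ i, ballRatio (T i).card) *
          iso S ^ (2 * n) ∧
        ((∃ i, n + 13 ≤ 3 * (T i).card ∨ n + 5 ≤ 2 * (T i).card) ∨
          (∀ i, 4 ≤ (T i).card) ∧ 15 * (n + 1) ≤ n + 15 * ∑ i, (T i).card → iso K < iso S)) ∧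
    (∀ (q p : ℕ) (K S : Set (Fin (q + p) → ℝ)) (U : Set (Fin p → ℝ)), 2 ≤ p → Fibred U K →
      Simp S →
      iso K ^ (2 * (q + p)) ≤ Real.exp (3 - 33 / 20 * q) * iso U ^ (2 * p) ∧
        (5 * q + 44 ≤ p → SymIn Finset.univ U → iso K < iso S)) ∧
    (∀ (q p : ℕ) (K : Set (Fin q → ℝ)) (U : Set (Fin p → ℝ)) (S : Set (Fin (q + p) → ℝ)),
      1 ≤ q → 5 * q + 6 ≤ p → Body K → SymIn Finset.univ U → Simp S →
      iso (prodBody K U) < iso S ∧ ((fun _ => 0) ∈ K → iso (freeSum K U) < iso S)) :=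
  ⟨fun _ _ _ hn hK hS => part_all hn hK hS, fun _ _ _ hK hS => part_class hK hS,
    fun n f hf h1 => Vale.Agent.P254.H375.functional n f hf h1, fun _ _ hn h _ _ hK hS => part_red hn h hK hS,
    fun _ _ _ _ _ hn hK hS hT hR => part_rot hn hK hS hT hR,
    fun _ _ _ _ _ hp hK hS => part_fib hp hK hS,
    fun _ _ _ _ _ hq hp hK hU hS => part_prod hq hp hK hU hS⟩
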