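import Vale.Agent.P254.Glob.Main
import Vale.Agent.P254.H4.Exact
import Vale.Agent.P254.H4.ReflT
import Vale.Agent.P254.H4.Slice

open MeasureTheory Set Matrix Vale.Agent.P254 Vale.Agent.P254.Unc

/-- For all `n ≥ 1`, all convex bodies `K` and all simplices `S` in `ℝⁿ`:
(1) near-sharp slicing: `L_K ≤ exp (7 (n+1) / (40 n)) L_S` and `L_K ≤ exp (-33/40)`.
(2) The slicing problem for hyperplane sections: `K` has a hyperplane section of volume at least
`0.658 |K|^((n-1)/n)`; here `n = m + 1` and the hyperplane is `{O (t, y) : y ∈ ℝ^m}` with an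
orthogonal matrix `O`. Moreover some linear image `A K`, `|det A| = 1`, has such a section in every
direction.
(3) `L_K ≤ L_S`, with equality iff `K` is a simplex, if `K` has `n` affine hyperplane symmetries
with independent directions (or `n - 1` which form a connected graph), or nearly fills an affine
image of an unconditional body, or is close to a simplex, or has at most `n + 2` vertices, or `n = 3`
and `K` has a suitable affine automorphism.
(4) `L_K < L_S` if `K` fills the part `t` of a convex body `U ⊇ K` (`|K| ≥ t |U|`) which has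
`m = n - q` affine hyperplane symmetries `x ↦ x - (w i · x - c i) a i`, `w i · a i = 2`, with
independent directions `a i`, split (by the labels `g i`) into `N ≥ 30 q + 3` groups such that
`w i · a j = 0` for `i`, `j` in different groups; nothing is assumed in the other `q` directions,
and `t^(n+2) ≥ exp (-(79/1000) (N - 30 q - 3))`. In particular (`t = 1`) `L_U < L_S`.
(5) `L_K < L_S` if `K` is invariant under the rotations of a set `T` of coordinates,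
`3 |T| ≥ n + 13`.
(6) `L_K < L_S` if `K` is the direct product of any convex body of `ℝ^q` and an unconditional convex
body of `ℝ^p`, `q ≥ 1`, `p ≥ 5 q + 6`. -/
theorem Vale.Agent.Results.P254.HyperplaneSections.result :
    (∀ (n : ℕ) (K S : Set (Fin n → ℝ)), 1 ≤ n → IsConvexBody K → IsSimplex S →
      isoConst K ≤ Real.exp (7 / 40 * (((n : ℝ) + 1) / n)) * isoConst S ∧
        isoConst K ≤ Real.exp (-(33 / 40))) ∧
    (∀ (m : ℕ) (K : Set (Fin (m + 1) → ℝ)), IsConvexBody K →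
      (∃ O : Matrix (Fin (m + 1)) (Fin (m + 1)) ℝ, Oᵀ * O = 1 ∧ ∃ t : ℝ,
        329 / 500 * (volume K).toReal ^ ((m : ℝ) / (m + 1)) ≤
          (volume {y : Fin m → ℝ | O *ᵥ (Fin.cons t y : Fin (m + 1) → ℝ) ∈ K}).toReal) ∧
      ∃ A : Matrix (Fin (m + 1)) (Fin (m + 1)) ℝ, |A.det| = 1 ∧
        ∀ O : Matrix (Fin (m + 1)) (Fin (m + 1)) ℝ, Oᵀ * O = 1 → ∃ t : ℝ,
          329 / 500 * (volume K).toReal ^ ((m : ℝ) / (m + 1)) ≤
            (volume {y : Fin m → ℝ |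
              O *ᵥ (Fin.cons t y : Fin (m + 1) → ℝ) ∈ (fun x => A *ᵥ x) '' K}).toReal) ∧
    (∀ (n : ℕ) (K S : Set (Fin n → ℝ)), 1 ≤ n → IsConvexBody K → IsSimplex S →
      ((∃ (m : ℕ) (a w : Fin m → Fin n → ℝ) (c : Fin m → ℝ), LinearIndependent ℝ a ∧
          (∀ i, w i ⬝ᵥ a i = 2) ∧ (∀ i, ∀ x ∈ K, x - (w i ⬝ᵥ x - c i) • a i ∈ K) ∧
          (m = n ∨ (2 ≤ n ∧ m + 1 = n ∧
            ∀ i j, Relation.ReflTransGen (fun i j => w i ⬝ᵥ a j ≠ 0) i j))) ∨
      (∃ (A : Matrix (Fin n) (Fin n) ℝ) (b : Fin n → ℝ) (U : Set (Fin n → ℝ)), A.det ≠ 0 ∧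
        IsConvexBody U ∧ Uncond U ∧ K ⊆ (fun x => A *ᵥ x + b) '' U ∧
        min (79 / 80) ((1 - 1 / 10 ^ 24) ^ n) *
          (volume ((fun x => A *ᵥ x + b) '' U)).toReal ≤ (volume K).toReal) ∨
      (∃ T : Set (Fin n → ℝ), IsSimplex T ∧ K ⊆ T ∧
        (1 - 1 / ((n : ℝ) + 2) ^ (4 * n)) * (volume T).toReal ≤ (volume K).toReal) ∨
      (∃ (T : Set (Fin n → ℝ)) (z : Fin n → ℝ) (r : ℝ), 0 < r ∧ r ≤ 1 + 1 / ((n : ℝ) + 2) ^ 5 ∧
        IsSimplex T ∧ T ⊆ K ∧ K ⊆ (fun x => z + r • x) '' T) ∨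
      (∃ v : Fin (n + 2) → Fin n → ℝ, K = convexHull ℝ (range v)) ∨
      (n = 3 ∧ ∃ (M : Matrix (Fin n) (Fin n) ℝ) (c : Fin n → ℝ), (fun x => M *ᵥ x + c) '' K = K ∧
        ((0 < M.det ∧ M * M ≠ 1) ∨ M * M * (M * M) ≠ 1)) →
      isoConst K ≤ isoConst S ∧ (isoConst K = isoConst S ↔ IsSimplex K))) ∧
    (∀ (n m N : ℕ) (K U S : Set (Fin n → ℝ)) (a w : Fin m → Fin n → ℝ) (c : Fin m → ℝ)
      (g : Fin m → Fin N) (t : ℝ), IsConvexBody K → IsConvexBody U → IsSimplex S →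
      LinearIndependent ℝ a → (∀ i, w i ⬝ᵥ a i = 2) →
      (∀ i, ∀ x ∈ U, x - (w i ⬝ᵥ x - c i) • a i ∈ U) →
      Function.Surjective g → (∀ i j, g i ≠ g j → w i ⬝ᵥ a j = 0) → 30 * (n - m) + 3 ≤ N →
      K ⊆ U → 0 < t → t * (volume U).toReal ≤ (volume K).toReal →
      Real.exp (-(79 / 1000 * ((N : ℝ) - 30 * ((n : ℝ) - m) - 3))) ≤ t ^ (n + 2) →
      isoConst K < isoConst S) ∧
    (∀ (n : ℕ) (K S : Set (Fin n → ℝ)) (T : Finset (Fin n)), 1 ≤ n → IsConvexBody K →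
      IsSimplex S →
      (∀ x ∈ K, ∀ y : Fin n → ℝ,
        (∀ i, i ∉ T → y i = x i) → ∑ i ∈ T, y i ^ 2 = ∑ i ∈ T, x i ^ 2 → y ∈ K) →
      n + 13 ≤ 3 * T.card → isoConst K < isoConst S) ∧
    (∀ (q p : ℕ) (K : Set (Fin q → ℝ)) (U : Set (Fin p → ℝ)) (S : Set (Fin (q + p) → ℝ)),
      1 ≤ q → 5 * q + 6 ≤ p → IsConvexBody K → IsConvexBody U → Uncond U → IsSimplex S →
      isoConst {z : Fin (q + p) → ℝ | (fun i => z (Fin.castAdd p i)) ∈ K ∧
        (fun j => z (Fin.natAdd q j)) ∈ U} < isoConst S) :=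
  ⟨fun _ _ _ hn hK hS => H242.near_sharp hn hK hS,
    fun _ _ hK => ⟨H4.slicing hK, H4.slicing_all hK⟩,
    fun _ _ _ hn hK hS h => Glob.exact hn hK hS h,
    fun _ _ _ _ _ _ _ _ _ g _ hK hU hS ha hw hR hg hgo hN hsub ht hvol hfill =>
      H4.refl_fill ha hw hK hU hS hR g hg hgo hN ht hsub hvol hfill,
    fun _ _ _ _ hn hK hS hR hT => H4.rot_lt hn hK hS hR hT,
    fun _ _ _ _ _ hq hp hK hU hu hS => H4.prod_lt hq hp hK hU hu hS⟩
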